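import Vale.Agent.P300.H435.L2.Defs

/-!
# P300 / PROJ: finite coverings `p : E → V ⊆ ℂⁿ` without labels

`ECov n N E`: an `N`-sheeted covering `p : E → V` of an open set `V` of `ℂⁿ` by a topological space
`E`. From it we build the labelled cover `C.S : Sheets n N` of `H435/L2`, with
`C.q : E → ℂⁿ × ℕ` (point ↦ base point and label) and `C.pt : ℂⁿ × ℕ → E`.
-/

set_option autoImplicit false

open MeasureTheory Filter Topology
open scoped ENNReal NNReal

namespace Vale.Agent.P300.L2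

/-- An `N`-sheeted covering `p : E → V` of an open subset `V` of `ℂⁿ`; `σ i` are the sheets over the
open set `W`. -/
structure ECov (n N : ℕ) (E : Type*) [TopologicalSpace E] where
  V : Set (Fin n → ℂ)
  isOpen : IsOpen V
  p : E → Fin n → ℂ
  continuous_p : Continuous p
  mem : ∀ e, p e ∈ V
  loc : ∀ z ∈ V, ∃ (W : Set (Fin n → ℂ)) (σ : Fin N → (Fin n → ℂ) → E), IsOpen W ∧ z ∈ W ∧ W ⊆ V ∧
    (∀ i, ContinuousOn (σ i) W) ∧ (∀ i, ∀ y ∈ W, p (σ i y) = y) ∧
    (∀ i j, ∀ z ∈ W, σ i z = σ j z → i = j) ∧ (∀ e, p e ∈ W → ∃ i, σ i (p e) = e) ∧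
    ∀ i, IsOpen {e | p e ∈ W ∧ σ i (p e) = e}

namespace ECov

variable {n N : ℕ} {E : Type*} [TopologicalSpace E]


/-- An `ECov` from a covering map with fibres of cardinality `N`. -/
def ofCovering {p : E → Fin n → ℂ} {V : Set (Fin n → ℂ)} (hV : IsOpen V) (hmem : ∀ e, p e ∈ V)
    (hcov : IsCoveringMapOn p V) (hfib : ∀ z ∈ V, Nonempty (Fin N ≃ p ⁻¹' {z})) : ECov n N E where
  V := V
  isOpen := hV
  p := p
  continuous_p := continuous_iff_continuousAt.2 fun e => (hcov (p e) (hmem e)).continuousAt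
  mem := hmem
  loc := by
    classical
    intro z₀ hz₀
    obtain ⟨hdisc, U, hzU, hU, hpU, H, hH⟩ := hcov z₀ hz₀
    obtain ⟨e0⟩ := hfib z₀ hz₀
    have hW : IsOpen (U ∩ V) := hU.inter hV
    -- the section number `i`
    have key : ∀ i : Fin N, ∃ σ : (Fin n → ℂ) → E, ∀ (z : Fin n → ℂ) (hz : z ∈ U),
        σ z = (H.symm (⟨z, hz⟩, e0 i) : E) := by
      intro i
      have : Nonempty E := ⟨(e0 i).1⟩
      refine ⟨fun z => if hz : z ∈ U then (H.symm (⟨z, hz⟩, e0 i) : E) else Classical.arbitrary E,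
        fun z hz => ?_⟩
      simp [hz]
    choose σ hσ using key
    have hp : ∀ i z, z ∈ U → p (σ i z) = z := by
      intro i z hz
      rw [hσ i z hz, ← hH, H.apply_symm_apply]
    have hH1 : ∀ (e : E) (he : p e ∈ U) , H ⟨e, he⟩ = (⟨p e, he⟩, (H ⟨e, he⟩).2) := by
      intro e he
      ext1
      · apply Subtype.ext
        exact hH ⟨e, he⟩
      · rfl
    have hsheet : ∀ (e : E) (he : p e ∈ U) (i : Fin N),
        σ i (p e) = e ↔ (H ⟨e, he⟩).2 = e0 i := by
      intro e he i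
      rw [hσ i _ he]
      constructor
      · intro h
        have h2 : H.symm (⟨p e, he⟩, e0 i) = ⟨e, he⟩ := Subtype.ext h
        rw [← h2, H.apply_symm_apply]
      · intro h
        have h2 : H ⟨e, he⟩ = (⟨p e, he⟩, e0 i) := by rw [hH1 e he, h]
        rw [← h2, H.symm_apply_apply]
    have hcont : ∀ i, ContinuousOn (σ i) (U ∩ V) := by
      intro i
      rw [continuousOn_iff_continuous_domRestrict]
      have : (U ∩ V).domRestrict (σ i) = fun z : ↥(U ∩ V) => (H.symm (⟨z.1, z.2.1⟩, e0 i) : E) := by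
        funext z
        exact hσ i z.1 z.2.1
      rw [this]
      refine continuous_subtype_val.comp (H.symm.continuous.comp ?_)
      refine Continuous.prodMk ?_ continuous_const
      exact Continuous.subtype_mk continuous_subtype_val _
    refine ⟨U ∩ V, σ, hW, ⟨hzU, hz₀⟩, Set.inter_subset_right, hcont,
      fun i z hz => hp i z hz.1, ?_, ?_, ?_⟩
    · intro i j z hz h
      rw [hσ i z hz.1, hσ j z hz.1] at h
      have h2 := H.symm.injective (Subtype.ext h)
      exact e0.injective (Prod.ext_iff.1 h2).2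
    · intro e he
      refine ⟨e0.symm (H ⟨e, he.1⟩).2, ?_⟩
      rw [hsheet e he.1]
      simp
    · intro i
      have h1 : {e | p e ∈ U ∩ V ∧ σ i (p e) = e} =
          Subtype.val '' {x : p ⁻¹' U | (H x).2 = e0 i} := by
        ext e
        constructor
        · rintro ⟨he, h⟩
          exact ⟨⟨e, he.1⟩, (hsheet e he.1 i).1 h, rfl⟩
        · rintro ⟨⟨e', he'⟩, h, rfl⟩
          exact ⟨⟨he', hmem e'⟩, (hsheet e' he' i).2 h⟩
      rw [h1]
      refine hpU.isOpenMap_subtype_val _ ?_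
      have h2 : IsOpen ({e0 i} : Set (p ⁻¹' {z₀})) := isOpen_discrete _
      exact h2.preimage (continuous_snd.comp H.continuous)

/-- An `ECov` from local sections, for Hausdorff `E`. -/
def ofSections [T2Space E] {p : E → Fin n → ℂ} {V : Set (Fin n → ℂ)} (hV : IsOpen V)
    (hc : Continuous p) (hmem : ∀ e, p e ∈ V)
    (hloc : ∀ z ∈ V, ∃ (W : Set (Fin n → ℂ)) (s : Fin N → (Fin n → ℂ) → E), IsOpen W ∧ z ∈ W ∧
      W ⊆ V ∧ (∀ i, ContinuousOn (s i) W) ∧ (∀ i, ∀ y ∈ W, p (s i y) = y) ∧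
      (∀ y ∈ W, Function.Injective fun i => s i y) ∧ ∀ e, p e ∈ W → ∃ i, s i (p e) = e) :
    ECov n N E where
  V := V
  isOpen := hV
  p := p
  continuous_p := hc
  mem := hmem
  loc := by
    intro z hz
    obtain ⟨W, s, hW, hzW, hWV, hcs, hps, hinj, hsurj⟩ := hloc z hz
    refine ⟨W, s, hW, hzW, hWV, hcs, hps, fun i j z hz h => hinj z hz h, hsurj, fun i => ?_⟩
    -- the complement of a sheet in `p⁻¹(W)` is the union of the others, which are closed in `p⁻¹(W)`
    have hcl : ∀ j, IsOpen {e | p e ∈ W ∧ s j (p e) ≠ e} := by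
      intro j
      have h1 : ContinuousOn (fun e => (s j (p e), e)) (p ⁻¹' W) :=
        ((hcs j).comp hc.continuousOn fun e he => he).prodMk continuousOn_id
      have h2 : IsOpen {x : E × E | x.1 ≠ x.2} := isClosed_diagonal.isOpen_compl
      exact h1.isOpen_inter_preimage (hW.preimage hc) h2
    have h3 : {e | p e ∈ W ∧ s i (p e) = e} =
        (p ⁻¹' W) ∩ ⋂ j ∈ (Finset.univ.erase i : Finset (Fin N)), {e | p e ∈ W ∧ s j (p e) ≠ e} := by
      ext e
      simp only [Set.mem_ofPred_eq, Set.mem_inter_iff, Set.mem_preimage, Set.mem_iInter,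
        Finset.mem_erase, Finset.mem_univ, and_true]
      constructor
      · rintro ⟨he, h⟩
        refine ⟨he, fun j hj => ⟨he, fun h' => hj ?_⟩⟩
        exact hinj (p e) he (by simp only [h, h'])
      · rintro ⟨he, h⟩
        refine ⟨he, ?_⟩
        obtain ⟨j, hj⟩ := hsurj e he
        by_cases hji : j = i
        · exact hji ▸ hj
        · exact absurd hj (h j hji).2
    rw [h3]
    exact (hW.preimage hc).inter (isOpen_biInter_finset fun j _ => hcl j)

/-- `σ` is a continuous section of `p` over the open set `W`. -/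
structure IsSec (C : ECov n N E) (W : Set (Fin n → ℂ)) (σ : (Fin n → ℂ) → E) : Prop where
  isOpen : IsOpen W
  cont : ContinuousOn σ W
  p_eq : ∀ z ∈ W, C.p (σ z) = z

theorem IsSec.subset {C : ECov n N E} {W : Set (Fin n → ℂ)} {σ : (Fin n → ℂ) → E}
    (h : C.IsSec W σ) : W ⊆ C.V := fun z hz => by
  have := C.mem (σ z)
  rwa [h.p_eq z hz] at this

theorem IsSec.mono {C : ECov n N E} {W W' : Set (Fin n → ℂ)} {σ : (Fin n → ℂ) → E}
    (h : C.IsSec W σ) (hW' : IsOpen W') (hWW : W' ⊆ W) : C.IsSec W' σ :=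
  ⟨hW', h.cont.mono hWW, fun z hz => h.p_eq z (hWW hz)⟩

/-- A trivialisation: all sheets over an open set. -/
structure Triv (C : ECov n N E) where
  W : Set (Fin n → ℂ)
  σ : Fin N → (Fin n → ℂ) → E
  sec : ∀ i, C.IsSec W (σ i)
  isOpen : IsOpen W
  subset : W ⊆ C.V
  inj : ∀ i j, ∀ z ∈ W, σ i z = σ j z → i = j
  surj : ∀ e, C.p e ∈ W → ∃ i, σ i (C.p e) = e
  open_sheet : ∀ i, IsOpen {e | C.p e ∈ W ∧ σ i (C.p e) = e}

variable (C : ECov n N E)

theorem exists_triv {z₀ : Fin n → ℂ} (hz₀ : z₀ ∈ C.V) : ∃ T : C.Triv, z₀ ∈ T.W := by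
  obtain ⟨W, σ, hW, hz, hWV, hc, hp, hi, hs, ho⟩ := C.loc z₀ hz₀
  exact ⟨⟨W, σ, fun i => ⟨hW, hc i, hp i⟩, hW, hWV, hi, hs, ho⟩, hz⟩

variable {C} in
/-- two sections with the same value at `z` agree near `z` -/
theorem IsSec.germ {W W' : Set (Fin n → ℂ)} {σ σ' : (Fin n → ℂ) → E} (h : C.IsSec W σ)
    (h' : C.IsSec W' σ') {z : Fin n → ℂ} (hz : z ∈ W) (hz' : z ∈ W') (he : σ z = σ' z) :
    σ =ᶠ[𝓝 z] σ' := by
  obtain ⟨T, hT⟩ := C.exists_triv (h.subset hz)
  obtain ⟨i, hi⟩ := T.surj (σ z) (by rwa [h.p_eq z hz])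
  have ho := T.open_sheet i
  have hm : σ z ∈ {e | C.p e ∈ T.W ∧ T.σ i (C.p e) = e} := ⟨by rwa [h.p_eq z hz], hi⟩
  have h1 : ∀ᶠ x in 𝓝 z, σ x ∈ {e | C.p e ∈ T.W ∧ T.σ i (C.p e) = e} :=
    (h.cont.continuousAt (h.isOpen.mem_nhds hz)).eventually_mem (ho.mem_nhds hm)
  have h2 : ∀ᶠ x in 𝓝 z, σ' x ∈ {e | C.p e ∈ T.W ∧ T.σ i (C.p e) = e} :=
    (h'.cont.continuousAt (h'.isOpen.mem_nhds hz')).eventually_mem (ho.mem_nhds (he ▸ hm))
  filter_upwards [h1, h2, h.isOpen.mem_nhds hz, h'.isOpen.mem_nhds hz'] with x hx1 hx2 hx3 hx4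
  have e1 := hx1.2
  have e2 := hx2.2
  rw [h.p_eq x hx3] at e1
  rw [h'.p_eq x hx4] at e2
  rw [← e1, ← e2]

/-- a section through every point -/
theorem exists_sec (e : E) : ∃ W σ, C.IsSec W σ ∧ C.p e ∈ W ∧ σ (C.p e) = e ∧
    ∀ᶠ e' in 𝓝 e, σ (C.p e') = e' := by
  obtain ⟨T, hT⟩ := C.exists_triv (C.mem e)
  obtain ⟨i, hi⟩ := T.surj e hT
  refine ⟨T.W, T.σ i, T.sec i, hT, hi, ?_⟩
  filter_upwards [(T.open_sheet i).mem_nhds (show e ∈ _ from ⟨hT, hi⟩)] with e' he'
  exact he'.2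

/-! ### A countable trivialising cover -/

theorem exists_seq [Nonempty E] : ∃ T : ℕ → C.Triv, C.V = ⋃ k, (T k).W := by
  classical
  have hne : C.V.Nonempty := ⟨_, C.mem (Classical.arbitrary E)⟩
  obtain ⟨t, htV, htc, hcov⟩ := TopologicalSpace.countable_cover_nhdsWithin (s := C.V)
    (f := fun z => if h : z ∈ C.V then (C.exists_triv h).choose.W else ∅) (by
      intro z hz
      have h1 := (C.exists_triv hz).choose_spec
      simp only [hz, dif_pos]
      exact mem_nhdsWithin_of_mem_nhds ((C.exists_triv hz).choose.isOpen.mem_nhds h1))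
  have htne : t.Nonempty := by
    obtain ⟨z, hz⟩ := hne
    have := hcov hz
    simp only [Set.mem_iUnion] at this
    obtain ⟨x, hx, -⟩ := this
    exact ⟨x, hx⟩
  obtain ⟨f, hf⟩ := htc.exists_eq_range htne
  have hfV : ∀ k, f k ∈ C.V := fun k => htV (hf ▸ Set.mem_range_self k)
  refine ⟨fun k => (C.exists_triv (hfV k)).choose, ?_⟩
  apply Set.Subset.antisymm
  · intro z hz
    have := hcov hz
    simp only [Set.mem_iUnion] at this
    obtain ⟨x, hx, hzx⟩ := this
    rw [hf] at hx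
    obtain ⟨k, rfl⟩ := hx
    rw [dif_pos (hfV k)] at hzx
    exact Set.mem_iUnion.2 ⟨k, hzx⟩
  · exact Set.iUnion_subset fun k => (C.exists_triv (hfV k)).choose.subset


/-! ### Labels -/

variable [Nonempty E]

/-- the chosen countable trivialising cover -/
noncomputable def T (k : ℕ) : C.Triv := (C.exists_seq).choose k

theorem iUnion_T : C.V = ⋃ k, (C.T k).W := (C.exists_seq).choose_spec

theorem exists_mem_T {z : Fin n → ℂ} (hz : z ∈ C.V) : ∃ k, z ∈ (C.T k).W := by
  rw [iUnion_T] at hz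
  exact Set.mem_iUnion.1 hz

open Classical in
/-- the first member of the cover which contains `z` -/
noncomputable def ix (z : Fin n → ℂ) : ℕ := if h : ∃ k, z ∈ (C.T k).W then Nat.find h else 0

theorem mem_ix {z : Fin n → ℂ} (hz : z ∈ C.V) : z ∈ (C.T (C.ix z)).W := by
  classical
  have h := C.exists_mem_T hz
  rw [ix, dif_pos h]
  exact Nat.find_spec h

theorem measurableSet_ix (k : ℕ) : MeasurableSet {z | z ∈ C.V ∧ C.ix z = k} := by
  classical
  have h1 : {z | z ∈ C.V ∧ C.ix z = k} = (C.T k).W \ ⋃ j < k, (C.T j).W := by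
    ext z
    simp only [Set.mem_ofPred_eq, Set.mem_sdiff, Set.mem_iUnion, exists_prop, not_exists, not_and]
    constructor
    · rintro ⟨hz, rfl⟩
      refine ⟨C.mem_ix hz, fun j hj hzj => ?_⟩
      have h := C.exists_mem_T hz
      rw [ix, dif_pos h] at hj
      exact Nat.find_min h hj hzj
    · rintro ⟨hz, hk⟩
      have hzV := (C.T k).subset hz
      refine ⟨hzV, ?_⟩
      have h := C.exists_mem_T hzV
      rw [ix, dif_pos h]
      exact (Nat.find_eq_iff h).2 ⟨hz, fun j hj => hk j hj⟩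
  rw [h1]
  exact (C.T k).isOpen.measurableSet.diff
    (MeasurableSet.iUnion fun j => MeasurableSet.iUnion fun _ => (C.T j).isOpen.measurableSet)

open Classical in
/-- the point with given base point and label -/
noncomputable def pt (q : (Fin n → ℂ) × ℕ) : E :=
  if h : q.1 ∈ C.V ∧ q.2 < N then (C.T (C.ix q.1)).σ ⟨q.2, h.2⟩ q.1 else Classical.arbitrary E

theorem pt_eq {z : Fin n → ℂ} (hz : z ∈ C.V) (i : Fin N) :
    C.pt (z, i) = (C.T (C.ix z)).σ i z := by
  classical
  rw [pt, dif_pos ⟨hz, i.2⟩]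

/-- the label of a point, in `Fin N` -/
noncomputable def labF (e : E) : Fin N := ((C.T (C.ix (C.p e))).surj e (C.mem_ix (C.mem e))).choose

theorem labF_spec (e : E) : (C.T (C.ix (C.p e))).σ (C.labF e) (C.p e) = e :=
  ((C.T (C.ix (C.p e))).surj e (C.mem_ix (C.mem e))).choose_spec

theorem labF_eq_iff (e : E) (i : Fin N) :
    C.labF e = i ↔ (C.T (C.ix (C.p e))).σ i (C.p e) = e := by
  constructor
  · rintro rfl
    exact C.labF_spec e
  · intro h
    exact (C.T (C.ix (C.p e))).inj _ _ _ (C.mem_ix (C.mem e)) ((C.labF_spec e).trans h.symm)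

/-- the label of a point -/
noncomputable def lab (e : E) : ℕ := C.labF e

theorem lab_lt (e : E) : C.lab e < N := (C.labF e).2

/-- base point and label -/
noncomputable def q (e : E) : (Fin n → ℂ) × ℕ := (C.p e, C.lab e)

@[simp] theorem q_fst (e : E) : (C.q e).1 = C.p e := rfl

@[simp] theorem q_snd (e : E) : (C.q e).2 = C.lab e := rfl

@[simp] theorem pt_q (e : E) : C.pt (C.q e) = e := by
  have := C.pt_eq (C.mem e) (C.labF e)
  exact this.trans (C.labF_spec e)

theorem p_pt {z : Fin n → ℂ} (hz : z ∈ C.V) {i : ℕ} (hi : i < N) : C.p (C.pt (z, i)) = z := by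
  have h := C.pt_eq hz ⟨i, hi⟩
  simp only at h
  rw [h]
  exact ((C.T (C.ix z)).sec _).p_eq z (C.mem_ix hz)

theorem lab_pt {z : Fin n → ℂ} (hz : z ∈ C.V) {i : ℕ} (hi : i < N) : C.lab (C.pt (z, i)) = i := by
  have h := C.p_pt hz hi
  have h2 := C.pt_eq hz ⟨i, hi⟩
  simp only at h2
  have h3 : C.labF (C.pt (z, i)) = ⟨i, hi⟩ := by
    rw [labF_eq_iff, h, h2]
  rw [lab, h3]

theorem q_pt {z : Fin n → ℂ} (hz : z ∈ C.V) {i : ℕ} (hi : i < N) : C.q (C.pt (z, i)) = (z, i) :=
  Prod.ext (C.p_pt hz hi) (C.lab_pt hz hi)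

theorem q_injective : Function.Injective C.q := fun e e' h => by
  rw [← C.pt_q e, h, C.pt_q]

/-- the labels of a continuous section are measurable -/
theorem measurable_lab_sec {W : Set (Fin n → ℂ)} {σ : (Fin n → ℂ) → E} (h : C.IsSec W σ) :
    ∃ s' : (Fin n → ℂ) → ℕ, Measurable s' ∧ ∀ z ∈ W, s' z = C.lab (σ z) := by
  classical
  refine ⟨fun z => if z ∈ W then C.lab (σ z) else 0, ?_, fun z hz => by simp [hz]⟩
  refine measurable_to_countable' fun i => ?_
  have hA : MeasurableSet {z | z ∈ W ∧ C.lab (σ z) = i} := by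
    by_cases hi : i < N
    · have h1 : {z | z ∈ W ∧ C.lab (σ z) = i} = ⋃ k, ({z | z ∈ C.V ∧ C.ix z = k} ∩
          {z | z ∈ W ∧ σ z ∈ {e | C.p e ∈ (C.T k).W ∧ (C.T k).σ ⟨i, hi⟩ (C.p e) = e}}) := by
        ext z
        simp only [Set.mem_ofPred_eq, Set.mem_iUnion, Set.mem_inter_iff]
        constructor
        · rintro ⟨hz, hl⟩
          refine ⟨C.ix z, ⟨h.subset hz, rfl⟩, hz, ?_, ?_⟩
          · rw [h.p_eq z hz]
            exact C.mem_ix (h.subset hz)
          · have h2 : C.labF (σ z) = ⟨i, hi⟩ := Fin.ext hl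
            have h3 := (C.labF_eq_iff (σ z) _).1 h2
            rwa [h.p_eq z hz] at h3 ⊢
        · rintro ⟨k, ⟨hzV, rfl⟩, hz, -, h3⟩
          refine ⟨hz, ?_⟩
          have h2 : C.labF (σ z) = ⟨i, hi⟩ := by
            rw [labF_eq_iff]
            rwa [h.p_eq z hz] at h3 ⊢
          rw [lab, h2]
      rw [h1]
      refine MeasurableSet.iUnion fun k => (C.measurableSet_ix k).inter ?_
      exact (h.cont.isOpen_inter_preimage h.isOpen ((C.T k).open_sheet ⟨i, hi⟩)).measurableSet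
    · have : {z | z ∈ W ∧ C.lab (σ z) = i} = ∅ := by
        ext z
        simp only [Set.mem_ofPred_eq, Set.mem_empty_iff_false, iff_false, not_and]
        intro _ h2
        exact hi (h2 ▸ C.lab_lt _)
      rw [this]
      exact MeasurableSet.empty
  by_cases hi0 : i = 0
  · have : (fun z => if z ∈ W then C.lab (σ z) else 0) ⁻¹' {i} =
        {z | z ∈ W ∧ C.lab (σ z) = i} ∪ Wᶜ := by
      ext z
      by_cases hz : z ∈ W <;> simp [hz, hi0]
    rw [this]
    exact hA.union h.isOpen.measurableSet.compl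
  · have : (fun z => if z ∈ W then C.lab (σ z) else 0) ⁻¹' {i} =
        {z | z ∈ W ∧ C.lab (σ z) = i} := by
      ext z
      by_cases hz : z ∈ W
      · simp [hz]
      · simp [hz, Ne.symm hi0]
    rw [this]
    exact hA

/-- **The labelled cover** attached to a covering. -/
noncomputable def S : Sheets n N where
  V := C.V
  fib := fun _ => Finset.range N
  IsSection := fun W s => (∀ z ∈ W, s z < N) ∧ W ⊆ C.V ∧ C.IsSec W (fun z => C.pt (z, s z))
  isOpen := C.isOpen
  isOpen_dom := fun h => h.2.2.isOpen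
  subset_dom := fun h => h.2.1
  mem_fib := fun h z hz => Finset.mem_range.2 (h.1 z hz)
  germ_eq := by
    intro W W' s s' h h' z hz hz' he
    have h1 := h.2.2.germ h'.2.2 hz hz' (by rw [he])
    filter_upwards [h1, h.2.2.isOpen.mem_nhds hz, h'.2.2.isOpen.mem_nhds hz'] with x hx hxW hxW'
    rw [← C.lab_pt (h.2.1 hxW) (h.1 x hxW), hx, C.lab_pt (h'.2.1 hxW') (h'.1 x hxW')]
  mono_dom := fun h hW' hWW => ⟨fun z hz => h.1 z (hWW hz), hWW.trans h.2.1, h.2.2.mono hW' hWW⟩
  meas_dom := by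
    intro W s h
    obtain ⟨s', hs', he⟩ := C.measurable_lab_sec h.2.2
    exact ⟨s', hs', fun z hz => by rw [he z hz, C.lab_pt (h.2.1 hz) (h.1 z hz)]⟩
  loc := by
    intro z₀ hz₀
    obtain ⟨T, hT⟩ := C.exists_triv hz₀
    have hq : ∀ i, ∀ z ∈ T.W, C.pt (z, C.lab (T.σ i z)) = T.σ i z := by
      intro i z hz
      have := C.pt_q (T.σ i z)
      rw [q, (T.sec i).p_eq z hz] at this
      exact this
    refine ⟨T.W, fun i z => C.lab (T.σ i z), T.isOpen, hT, T.subset, fun i => ⟨fun z _ =>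
      C.lab_lt _, T.subset, (T.isOpen), ?_, ?_⟩, fun z hz => ⟨?_, ?_⟩⟩
    · exact (T.sec i).cont.congr fun z hz => hq i z hz
    · intro z hz
      rw [hq i z hz, (T.sec i).p_eq z hz]
    · intro i j hij
      simp only at hij
      refine T.inj i j z hz ?_
      rw [← hq i z hz, hij, hq j z hz]
    · ext k
      simp only [Finset.mem_range, Finset.mem_image, Finset.mem_univ, true_and]
      constructor
      · intro hk
        obtain ⟨i, hi⟩ := T.surj (C.pt (z, k)) (by rwa [C.p_pt (T.subset hz) hk])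
        rw [C.p_pt (T.subset hz) hk] at hi
        exact ⟨i, by rw [hi, C.lab_pt (T.subset hz) hk]⟩
      · rintro ⟨i, rfl⟩
        exact C.lab_lt _

end ECov

end Vale.Agent.P300.L2
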