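import Vale.Agent.P300.H14.ECov
import Vale.Agent.P300.H435.L2.Meas

/-!
# P300 / PROJ: the measure of a finite covering `p : E → V ⊆ ℂⁿ`
-/

set_option autoImplicit false

open MeasureTheory Filter Topology
open scoped ENNReal NNReal

namespace Vale.Agent.P300.L2

namespace ECov

variable {n N : ℕ} {E : Type*} [TopologicalSpace E] (C : ECov n N E)

/-- `p` is a local homeomorphism -/
theorem isLocalHomeomorph_p : IsLocalHomeomorph C.p := by
  intro e
  obtain ⟨T, hT⟩ := C.exists_triv (C.mem e)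
  obtain ⟨i, hi⟩ := T.surj e hT
  refine ⟨{ toFun := C.p
            invFun := T.σ i
            source := {e | C.p e ∈ T.W ∧ T.σ i (C.p e) = e}
            target := T.W
            map_source' := fun e he => he.1
            map_target' := fun z hz => ⟨by rw [(T.sec i).p_eq z hz]; exact hz, by
              rw [(T.sec i).p_eq z hz]⟩
            left_inv' := fun e he => he.2
            right_inv' := fun z hz => (T.sec i).p_eq z hz
            open_source := T.open_sheet i
            open_target := T.isOpen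
            continuousOn_toFun := C.continuous_p.continuousOn
            continuousOn_invFun := (T.sec i).cont }, ⟨hT, hi⟩, rfl⟩

variable [Nonempty E]

theorem mem_M_iff {q : (Fin n → ℂ) × ℕ} : q ∈ C.S.M ↔ q.1 ∈ C.V ∧ q.2 < N := by
  show q.1 ∈ C.V ∧ q.2 ∈ Finset.range N ↔ _
  rw [Finset.mem_range]

theorem q_mem_M (e : E) : C.q e ∈ C.S.M := C.mem_M_iff.2 ⟨C.mem e, C.lab_lt e⟩

theorem q_pt' {q : (Fin n → ℂ) × ℕ} (h : q ∈ C.S.M) : C.q (C.pt q) = q := by
  obtain ⟨h1, h2⟩ := C.mem_M_iff.1 h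
  exact C.q_pt h1 h2

theorem p_pt' {q : (Fin n → ℂ) × ℕ} (h : q ∈ C.S.M) : C.p (C.pt q) = q.1 := by
  obtain ⟨h1, h2⟩ := C.mem_M_iff.1 h
  exact C.p_pt h1 h2

/-- the section of `E` attached to a section of the labelled cover -/
theorem isSec_pt {W : Set (Fin n → ℂ)} {s : (Fin n → ℂ) → ℕ} (h : C.S.IsSection W s) :
    C.IsSec W (fun z => C.pt (z, s z)) := h.2.2

/-- the section of the labelled cover attached to a section of `E` -/
theorem isSection_lab {W : Set (Fin n → ℂ)} {σ : (Fin n → ℂ) → E} (h : C.IsSec W σ) :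
    C.S.IsSection W (fun z => C.lab (σ z)) := by
  have hq : ∀ z ∈ W, C.pt (z, C.lab (σ z)) = σ z := by
    intro z hz
    have := C.pt_q (σ z)
    rw [q, h.p_eq z hz] at this
    exact this
  refine ⟨fun z _ => C.lab_lt _, h.subset, h.isOpen, h.cont.congr fun z hz => hq z hz,
    fun z hz => ?_⟩
  rw [hq z hz, h.p_eq z hz]

theorem q_sec {W : Set (Fin n → ℂ)} {σ : (Fin n → ℂ) → E} (h : C.IsSec W σ) {z : Fin n → ℂ}
    (hz : z ∈ W) : C.q (σ z) = (z, C.lab (σ z)) := by
  rw [q, h.p_eq z hz]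

variable [MeasurableSpace E] [BorelSpace E]

theorem measurable_lab : Measurable C.lab := by
  refine measurable_to_countable' fun i => ?_
  by_cases hi : i < N
  · have h1 : C.lab ⁻¹' {i} = ⋃ k, ((C.p ⁻¹' {z | z ∈ C.V ∧ C.ix z = k}) ∩
        {e | C.p e ∈ (C.T k).W ∧ (C.T k).σ ⟨i, hi⟩ (C.p e) = e}) := by
      ext e
      simp only [Set.mem_preimage, Set.mem_singleton_iff, Set.mem_iUnion, Set.mem_inter_iff,
        Set.mem_ofPred_eq]
      constructor
      · intro h
        refine ⟨C.ix (C.p e), ⟨C.mem e, rfl⟩, C.mem_ix (C.mem e), ?_⟩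
        exact (C.labF_eq_iff e ⟨i, hi⟩).1 (Fin.ext h)
      · rintro ⟨k, ⟨-, rfl⟩, -, h⟩
        have := (C.labF_eq_iff e ⟨i, hi⟩).2 h
        rw [lab, this]
    rw [h1]
    exact MeasurableSet.iUnion fun k => (C.continuous_p.measurable (C.measurableSet_ix k)).inter
      ((C.T k).open_sheet ⟨i, hi⟩).measurableSet
  · have : C.lab ⁻¹' {i} = ∅ := by
      ext e
      simp only [Set.mem_preimage, Set.mem_singleton_iff, Set.mem_empty_iff_false, iff_false]
      intro h
      exact hi (h ▸ C.lab_lt e)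
    rw [this]
    exact MeasurableSet.empty

theorem measurable_q : Measurable C.q := C.continuous_p.measurable.prodMk C.measurable_lab

theorem measurable_pt : Measurable C.pt := by
  classical
  refine measurable_of_isOpen fun O hO => ?_
  have h1 : C.pt ⁻¹' O = (⋃ k, ⋃ i : Fin N, (({z | z ∈ C.V ∧ C.ix z = k} ∩
      ((C.T k).W ∩ (C.T k).σ i ⁻¹' O)) ×ˢ ({(i : ℕ)} : Set ℕ))) ∪
      {q | ¬ (q.1 ∈ C.V ∧ q.2 < N) ∧ Classical.arbitrary E ∈ O} := by
    ext ⟨z, i⟩
    simp only [Set.mem_preimage, Set.mem_union, Set.mem_iUnion, Set.mem_prod, Set.mem_inter_iff,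
      Set.mem_ofPred_eq, Set.mem_singleton_iff]
    by_cases h : z ∈ C.V ∧ i < N
    · have h2 := C.pt_eq h.1 ⟨i, h.2⟩
      simp only at h2
      constructor
      · intro h3
        rw [h2] at h3
        exact Or.inl ⟨C.ix z, ⟨i, h.2⟩, ⟨⟨h.1, rfl⟩, C.mem_ix h.1, h3⟩, rfl⟩
      · rintro (⟨k, j, ⟨⟨-, hk⟩, -, h4⟩, hj⟩ | h3)
        · subst hk
          have h5 : j = ⟨i, h.2⟩ := Fin.ext hj.symm
          rw [h5] at h4
          rwa [h2]
        · exact absurd h h3.1
    · constructor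
      · intro h3
        rw [pt, dif_neg h] at h3
        exact Or.inr ⟨h, h3⟩
      · rintro (⟨k, j, ⟨⟨hz, -⟩, -⟩, hj⟩ | h3)
        · exact absurd ⟨hz, hj ▸ j.2⟩ h
        · rw [pt, dif_neg h]
          exact h3.2
  rw [h1]
  refine MeasurableSet.union ?_ ?_
  · refine MeasurableSet.iUnion fun k => MeasurableSet.iUnion fun i => ?_
    refine ((C.measurableSet_ix k).inter ?_).prod (measurableSet_singleton _)
    exact (((C.T k).sec i).cont.isOpen_inter_preimage (C.T k).isOpen hO).measurableSet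
  · have h2 : MeasurableSet {q : (Fin n → ℂ) × ℕ | q.1 ∈ C.V ∧ q.2 < N} := by
      have h3 : {q : (Fin n → ℂ) × ℕ | q.1 ∈ C.V ∧ q.2 < N} = C.V ×ˢ {i : ℕ | i < N} := by
        ext q
        simp [Set.mem_prod]
      rw [h3]
      exact C.isOpen.measurableSet.prod (MeasurableSet.of_discrete)
    exact h2.compl.inter (MeasurableSet.const _)

/-- **The measure on `E`**: pull back of Lebesgue measure. -/
noncomputable def μE : Measure E := C.S.μ.map C.pt

theorem map_q : C.μE.map C.q = C.S.μ := by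
  rw [μE, Measure.map_map C.measurable_q C.measurable_pt]
  have h : (C.q ∘ C.pt) =ᵐ[C.S.μ] id := by
    filter_upwards [Sheets.ae_mem_M (S := C.S)] with x hx
    exact C.q_pt' hx
  rw [Measure.map_congr h, Measure.map_id]

theorem measurableEmbedding_q : MeasurableEmbedding C.q := by
  refine ⟨C.q_injective, C.measurable_q, fun {A} hA => ?_⟩
  have : C.q '' A = C.S.M ∩ C.pt ⁻¹' A := by
    ext x
    constructor
    · rintro ⟨e, he, rfl⟩
      exact ⟨C.q_mem_M e, by rwa [Set.mem_preimage, C.pt_q]⟩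
    · rintro ⟨hx, hx2⟩
      exact ⟨C.pt x, hx2, C.q_pt' hx⟩
  rw [this]
  exact Sheets.measurableSet_M.inter (C.measurable_pt hA)

/-- integrals over the labelled cover are integrals over `E` -/
theorem lintegral_q (X : (Fin n → ℂ) × ℕ → ℝ≥0∞) :
    ∫⁻ x, X x ∂C.S.μ = ∫⁻ e, X (C.q e) ∂C.μE := by
  rw [← C.map_q, C.measurableEmbedding_q.lintegral_map]

theorem setLIntegral_q (X : (Fin n → ℂ) × ℕ → ℝ≥0∞) (A : Set ((Fin n → ℂ) × ℕ)) :
    ∫⁻ x in A, X x ∂C.S.μ = ∫⁻ e in C.q ⁻¹' A, X (C.q e) ∂C.μE := by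
  rw [← C.map_q, C.measurableEmbedding_q.restrict_map, C.measurableEmbedding_q.lintegral_map]

open Classical in
/-- the fibre -/
noncomputable def fibE (z : Fin n → ℂ) : Finset E :=
  Finset.univ.image fun i : Fin N => C.pt (z, i)

omit [MeasurableSpace E] [BorelSpace E] in
theorem mem_fibE {z : Fin n → ℂ} (hz : z ∈ C.V) (e : E) : e ∈ C.fibE z ↔ C.p e = z := by
  classical
  simp only [fibE, Finset.mem_image, Finset.mem_univ, true_and]
  constructor
  · rintro ⟨i, rfl⟩
    exact C.p_pt hz i.2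
  · rintro rfl
    exact ⟨C.labF e, C.pt_q e⟩

/-- the integral of a function on `E` -/
theorem lintegral_μE {G : E → ℝ≥0∞} (hG : Measurable G) :
    ∫⁻ e, G e ∂C.μE = ∫⁻ z in C.V, ∑ e ∈ C.fibE z, G e := by
  classical
  rw [μE, lintegral_map hG C.measurable_pt]
  refine (Sheets.lintegral_μ (S := C.S) (Ψ := fun x => G (C.pt x))
    (hG.comp C.measurable_pt)).trans ?_
  refine setLIntegral_congr_fun C.isOpen.measurableSet fun z hz => ?_
  show ∑ w ∈ Finset.range N, G (C.pt (z, w)) = _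
  rw [fibE, Finset.sum_image, Finset.sum_range]
  intro i _ j _ h
  have h1 := C.lab_pt hz i.2
  have h2 := C.lab_pt hz j.2
  simp only at h
  rw [h, h2] at h1
  exact Fin.ext h1.symm

end ECov

end Vale.Agent.P300.L2
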