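import Vale.Agent.P300.H86.Proj
import Vale.Agent.P300.H918.Gen

/-!
# P300 [CHOW]: generic linear maps

`genM1 : GenM1`, `genM2 : GenM2` (statements of `H86/Proj.lean`).
-/

set_option autoImplicit false

open Set Filter Topology
open scoped ContDiff ENNReal

namespace Vale.Agent.P300.H14

open Vale.Agent.P300.H86 (W ProjAtlas lf lf_apply tg Inj3 Good GenM1 GenM2 contDiffOn_real)

variable {n : ℕ} {C : Set (Fin n → ℂ)}

/-- the bad set of matrices of a family of vectors -/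
def Bk (k : ℕ) {P : Type} (D : Set P) (V : P → (Fin n → ℂ)) : Set (Fin 4 → Fin n → ℂ) :=
  {M | ∃ u ∈ D, ∀ r : Fin 4, (r : ℕ) < k → ∑ b, M r b * V u b = 0}

/-- sets of small dimension -/
def Neg (S : Set (Fin 4 → Fin n → ℂ)) : Prop := dimH S ≤ ((8 * n - 1 : ℕ) : ℝ≥0∞)

theorem exists_avoid (hn : 1 ≤ n) {𝒮 : Set (Set (Fin 4 → Fin n → ℂ))} (hc : 𝒮.Countable)
    (h : ∀ S ∈ 𝒮, Neg S) : ∃ M, ∀ S ∈ 𝒮, M ∉ S := by
  have : Countable 𝒮 := hc.to_subtype
  obtain ⟨M, hM⟩ := H918.exists_generic hn (fun S : 𝒮 => (S : Set (Fin 4 → Fin n → ℂ)))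
    fun S => h S S.2
  exact ⟨M, fun S hS => hM ⟨S, hS⟩⟩

theorem neg_Bk {k : ℕ} (hk : k ≤ 4) {P : Type} [NormedAddCommGroup P] [NormedSpace ℝ P]
    [FiniteDimensional ℝ P] (hP : Module.finrank ℝ P < 2 * k) {D : Set P} (hD : IsOpen D)
    {V : P → (Fin n → ℂ)} (hV : ContDiffOn ℝ 1 V D) (h0 : ∀ u ∈ D, V u ≠ 0) : Neg (Bk k D V) :=
  H918.bad_dimH k hk hP hD V hV h0

theorem contDiffOn_pi_real {f : W → (Fin n → ℂ)} {D : Set W} (hD : IsOpen D)
    (hf : DifferentiableOn ℂ f D) : ContDiffOn ℝ 1 f D :=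
  contDiffOn_pi.2 fun b => contDiffOn_real hD ((differentiableOn_pi.1 hf) b)

/-- homogeneous coordinates in the `j`-th chart of the projective plane -/
def cv : Fin 3 → (Fin 2 → ℂ) → (Fin 3 → ℂ)
  | 0, t => ![1, t 0, t 1]
  | 1, t => ![t 0, 1, t 1]
  | 2, t => ![t 0, t 1, 1]

theorem cv_ne (j : Fin 3) (t : Fin 2 → ℂ) : cv j t ≠ 0 := by
  intro h
  have h1 := congrFun h j
  fin_cases j <;> simp [cv] at h1

theorem exists_cv {c : Fin 3 → ℂ} (hc : c ≠ 0) : ∃ j t, ∃ s : ℂ, s ≠ 0 ∧ c = s • cv j t := by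
  obtain ⟨j, hj⟩ := Function.ne_iff.1 hc
  simp only [Pi.zero_apply] at hj
  fin_cases j
  · refine ⟨0, ![c 1 / c 0, c 2 / c 0], c 0, hj, ?_⟩
    have hj' : c 0 ≠ 0 := hj
    funext m
    fin_cases m <;> simp [cv] <;> field_simp
  · refine ⟨1, ![c 0 / c 1, c 2 / c 1], c 1, hj, ?_⟩
    have hj' : c 1 ≠ 0 := hj
    funext m
    fin_cases m <;> simp [cv] <;> field_simp
  · refine ⟨2, ![c 0 / c 2, c 1 / c 2], c 2, hj, ?_⟩
    have hj' : c 2 ≠ 0 := hj
    funext m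
    fin_cases m <;> simp [cv] <;> field_simp

theorem contDiff_cv (j : Fin 3) : ContDiff ℝ 1 (cv j) := by
  have h : ∀ m : Fin 2, ContDiff ℝ 1 (fun t : Fin 2 → ℂ => t m) := fun m => contDiff_apply ℝ ℂ m
  fin_cases j
  · refine contDiff_pi.2 fun m => ?_
    fin_cases m
    · exact contDiff_const
    · exact h 0
    · exact h 1
  · refine contDiff_pi.2 fun m => ?_
    fin_cases m
    · exact h 0
    · exact contDiff_const
    · exact h 1
  · refine contDiff_pi.2 fun m => ?_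
    fin_cases m
    · exact h 0
    · exact h 1
    · exact contDiff_const

variable (A : ProjAtlas C)

theorem contDiff_tg (i : A.ι) (u : W) : ContDiff ℝ 1 (tg A i u) := by
  have h : ∀ m : Fin 3, ContDiff ℝ 1 (fun t : Fin 3 → ℂ => t m) := fun m => contDiff_apply ℝ ℂ m
  unfold tg
  exact (((h 0).smul contDiff_const).add ((h 1).smul contDiff_const)).add
    ((h 2).smul contDiff_const)

theorem tg_smul (i : A.ι) (u : W) (s : ℂ) (c : Fin 3 → ℂ) : tg A i u (s • c) = s • tg A i u c := by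
  simp only [tg, Pi.smul_apply, smul_eq_mul, smul_add, smul_smul]

theorem tg_ne {i : A.ι} {u : W} (hu : u ∈ A.D i) {c : Fin 3 → ℂ} (hc : c ≠ 0) :
    tg A i u c ≠ 0 := by
  intro h
  apply hc
  have h1 := Fintype.linearIndependent_iff.1 (A.imm i u hu) c (by
    rw [Fin.sum_univ_three]
    exact h)
  funext m
  exact h1 m

/-- the bad sets -/
def S0 (v : Fin n → ℂ) : Set (Fin 4 → Fin n → ℂ) :=
  Bk 1 (univ : Set (Fin 0 → ℂ)) fun _ => v

def S1 (i : A.ι) : Set (Fin 4 → Fin n → ℂ) := Bk 3 (A.D i) (A.F i)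

def S3 (i : A.ι) (u : W) (j : Fin 3) : Set (Fin 4 → Fin n → ℂ) :=
  Bk 3 (univ : Set W) fun t => tg A i u (cv j t)

def S4 (i : A.ι) (x : Fin n → ℂ) : Set (Fin 4 → Fin n → ℂ) :=
  Bk 4 {q : ℂ × W | q.1 ≠ 0 ∧ q.2 ∈ A.D i ∧ q.1 • A.F i q.2 - x ≠ 0}
    fun q => q.1 • A.F i q.2 - x

def S5 (i : A.ι) (u : W) (κ : Fin n → ℂ) : Set (Fin 4 → Fin n → ℂ) :=
  Bk 4 (univ : Set (Fin 3 → ℂ)) fun c => κ - tg A i u c

theorem neg_S0 {v : Fin n → ℂ} (hv : v ≠ 0) : Neg (S0 v) :=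
  neg_Bk (by norm_num) (by
    rw [Module.finrank_zero_of_subsingleton]
    norm_num) isOpen_univ contDiffOn_const fun _ _ => hv

theorem neg_S1 (i : A.ι) : Neg (S1 A i) := by
  refine neg_Bk (by norm_num) ?_ (A.openD i) (contDiffOn_pi_real (A.openD i) (A.diff i))
    fun u hu h => ?_
  · simp [Module.finrank_pi_fintype, Complex.finrank_real_complex]
  · exact A.zero (h ▸ A.mem i u hu)

theorem neg_S3 {i : A.ι} {u : W} (hu : u ∈ A.D i) (j : Fin 3) : Neg (S3 A i u j) := by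
  refine neg_Bk (by norm_num) ?_ isOpen_univ ?_ fun t _ => tg_ne A hu (cv_ne j t)
  · simp [Module.finrank_pi_fintype, Complex.finrank_real_complex]
  · exact ((contDiff_tg A i u).comp (contDiff_cv j)).contDiffOn

theorem neg_S4 (i : A.ι) (x : Fin n → ℂ) : Neg (S4 A i x) := by
  have h1 : ContDiffOn ℝ 1 (fun q : ℂ × W => q.1 • A.F i q.2 - x) {q | q.2 ∈ A.D i} := by
    refine ContDiffOn.sub (ContDiffOn.smul contDiffOn_fst ?_) contDiffOn_const
    exact (contDiffOn_pi_real (A.openD i) (A.diff i)).comp contDiffOn_snd fun q hq => hq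
  have hO : IsOpen {q : ℂ × W | q.2 ∈ A.D i} := (A.openD i).preimage continuous_snd
  have h2 : {q : ℂ × W | q.1 ≠ 0 ∧ q.2 ∈ A.D i ∧ q.1 • A.F i q.2 - x ≠ 0} =
      {q | q.1 ≠ 0} ∩ ({q | q.2 ∈ A.D i} ∩ (fun q : ℂ × W => q.1 • A.F i q.2 - x) ⁻¹' {0}ᶜ) := by
    ext q
    simp
  refine neg_Bk (by norm_num) ?_ ?_ (h1.mono fun q hq => hq.2.1) fun q hq => hq.2.2
  · simp [Module.finrank_prod, Module.finrank_pi_fintype, Complex.finrank_real_complex]
  · rw [h2]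
    refine (isOpen_compl_singleton.preimage continuous_fst).inter ?_
    exact h1.continuousOn.isOpen_inter_preimage hO isOpen_compl_singleton

theorem neg_S5 {i : A.ι} {u : W} {κ : Fin n → ℂ} (hκ : ∀ c, κ ≠ tg A i u c) :
    Neg (S5 A i u κ) := by
  refine neg_Bk (by norm_num) ?_ isOpen_univ (contDiffOn_const.sub (contDiff_tg A i u).contDiffOn)
    fun c _ => sub_ne_zero.2 (hκ c)
  simp [Module.finrank_pi_fintype, Complex.finrank_real_complex]

theorem l0_ne {M : Fin 4 → Fin n → ℂ} {v : Fin n → ℂ} (h : M ∉ S0 v) : lf M 0 v ≠ 0 := by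
  intro h0
  apply h
  refine ⟨0, mem_univ _, fun r hr => ?_⟩
  have : r = 0 := Fin.ext (by omega)
  rw [this, ← lf_apply, h0]

theorem inj3_of {M : Fin 4 → Fin n → ℂ} {i : A.ι} {u : W} (h : ∀ j, M ∉ S3 A i u j) :
    Inj3 A M i u := by
  intro c h0 h1 h2
  by_contra hc
  obtain ⟨j, t, s, hs, rfl⟩ := exists_cv hc
  apply h j
  refine ⟨t, mem_univ _, fun r hr => ?_⟩
  have h3 : lf M r (tg A i u (s • cv j t)) = 0 := by
    have : r = 0 ∨ r = 1 ∨ r = 2 := by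
      rcases r with ⟨r, hr'⟩
      simp only at hr
      interval_cases r <;> simp
    rcases this with rfl | rfl | rfl
    · exact h0
    · exact h1
    · exact h2
  rw [tg_smul, map_smul, smul_eq_mul] at h3
  rw [← lf_apply]
  exact (mul_eq_zero.1 h3).resolve_left hs

theorem sep_of {M : Fin 4 → Fin n → ℂ} {x : Fin n → ℂ} (h : ∀ i, M ∉ S4 A i x) {v : Fin n → ℂ}
    (hv : v ∈ C) (hr : ∀ r, lf M r v = lf M r x) : v = x := by
  by_contra hne
  obtain ⟨i, u, hu, s, hs, rfl⟩ := A.cover v hv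
  apply h i
  refine ⟨(s, u), ⟨hs, hu, sub_ne_zero.2 hne⟩, fun r _ => ?_⟩
  rw [← lf_apply, map_sub, hr r, sub_self]

/-- a countable dense set in each chart -/
theorem exists_dense : ∃ t : A.ι → Set W, (∀ i, t i ⊆ A.D i ∧ (t i).Countable) ∧
    ∀ i, ∀ U : Set W, IsOpen U → U ⊆ A.D i → U.Nonempty → ∃ u ∈ U, u ∈ t i := by
  have h : ∀ i, ∃ t : Set W, t ⊆ A.D i ∧ t.Countable ∧ A.D i ⊆ closure t := fun i =>
    (TopologicalSpace.IsSeparable.of_separableSpace (A.D i)).exists_countable_dense_subset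
  choose t ht1 ht2 ht3 using h
  refine ⟨t, fun i => ⟨ht1 i, ht2 i⟩, fun i U hU hUD ⟨y, hy⟩ => ?_⟩
  obtain ⟨u, hu, hut⟩ := mem_closure_iff.1 (ht3 i (hUD hy)) U hU hy
  exact ⟨u, hu, hut⟩

/-- the countable family of bad sets of `Good` -/
theorem exists_good_family : ∃ 𝒮 : Set (Set (Fin 4 → Fin n → ℂ)), 𝒮.Countable ∧
    (∀ S ∈ 𝒮, Neg S) ∧ ∀ M, (∀ S ∈ 𝒮, M ∉ S) → Good A M := by
  have hcnt : Countable A.ι := A.cnt
  obtain ⟨t, ht, htU⟩ := exists_dense A
  refine ⟨(range (S1 A)) ∪ ((⋃ i, (fun u => S0 (A.F i u)) '' t i) ∪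
    ⋃ i, ⋃ j : Fin 3, (fun u => S3 A i u j) '' t i), ?_, ?_, ?_⟩
  · refine (countable_range _).union (Countable.union ?_ ?_)
    · exact countable_iUnion fun i => (ht i).2.image _
    · exact countable_iUnion fun i => countable_iUnion fun j => (ht i).2.image _
  · rintro S (⟨i, rfl⟩ | hS | hS)
    · exact neg_S1 A i
    · obtain ⟨i, u, hu, rfl⟩ := mem_iUnion.1 hS
      exact neg_S0 fun h => A.zero (h ▸ A.mem i u ((ht i).1 hu))
    · obtain ⟨i, hS⟩ := mem_iUnion.1 hS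
      obtain ⟨j, u, hu, rfl⟩ := mem_iUnion.1 hS
      exact neg_S3 A ((ht i).1 hu) j
  · intro M hM
    refine ⟨fun v hv h0 h1 h2 => ?_, fun i U hU hUD hne => ?_⟩
    · obtain ⟨i, u, hu, s, hs, rfl⟩ := A.cover v hv
      refine hM (S1 A i) (Or.inl ⟨i, rfl⟩) ⟨u, hu, fun r hr => ?_⟩
      have h3 : lf M r (s • A.F i u) = 0 := by
        have : r = 0 ∨ r = 1 ∨ r = 2 := by
          rcases r with ⟨r, hr'⟩
          simp only at hr
          interval_cases r <;> simp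
        rcases this with rfl | rfl | rfl
        · exact h0
        · exact h1
        · exact h2
      rw [map_smul, smul_eq_mul] at h3
      rw [← lf_apply]
      exact (mul_eq_zero.1 h3).resolve_left hs
    · obtain ⟨u, hu, hut⟩ := htU i U hU hUD hne
      refine ⟨u, hu, l0_ne (hM _ (Or.inr (Or.inl (mem_iUnion.2 ⟨i, u, hut, rfl⟩)))), ?_⟩
      exact inj3_of A fun j => hM _ (Or.inr (Or.inr (mem_iUnion.2 ⟨i, mem_iUnion.2
        ⟨j, u, hut, rfl⟩⟩)))

theorem one_le_of_ne {x : Fin n → ℂ} (hx : x ≠ 0) : 1 ≤ n := by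
  obtain ⟨j, -⟩ := Function.ne_iff.1 hx
  have := j.2
  omega

theorem genM1 : GenM1 := by
  intro n C A x hx hxC
  have hcnt : Countable A.ι := A.cnt
  obtain ⟨𝒮, hc, hneg, hgood⟩ := exists_good_family A
  obtain ⟨M, hM⟩ := exists_avoid (one_le_of_ne hx)
    (𝒮 := 𝒮 ∪ ({S0 x} ∪ range fun i => S4 A i x))
    (hc.union ((countable_singleton _).union (countable_range _))) (by
      rintro S (hS | hS | ⟨i, rfl⟩)
      · exact hneg S hS
      · rw [mem_singleton_iff.1 hS]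
        exact neg_S0 hx
      · exact neg_S4 A i x)
  refine ⟨M, hgood M fun S hS => hM S (Or.inl hS), l0_ne (hM _ (Or.inr (Or.inl rfl))),
    fun v hv hr => ?_⟩
  exact hxC (sep_of A (fun i => hM _ (Or.inr (Or.inr ⟨i, rfl⟩))) hv hr ▸ hv)

theorem genM2 : GenM2 := by
  intro n C A i u κ hu hκ
  have hcnt : Countable A.ι := A.cnt
  have hx : A.F i u ≠ 0 := fun h => A.zero (h ▸ A.mem i u hu)
  obtain ⟨𝒮, hc, hneg, hgood⟩ := exists_good_family A
  obtain ⟨M, hM⟩ := exists_avoid (one_le_of_ne hx)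
    (𝒮 := 𝒮 ∪ (({S0 (A.F i u)} ∪ range fun i' => S4 A i' (A.F i u)) ∪
      ((range fun j => S3 A i u j) ∪ {S5 A i u κ})))
    (hc.union (((countable_singleton _).union (countable_range _)).union
      ((countable_range _).union (countable_singleton _)))) (by
      rintro S (hS | (hS | ⟨i', rfl⟩) | (⟨j, rfl⟩ | hS))
      · exact hneg S hS
      · rw [mem_singleton_iff.1 hS]
        exact neg_S0 hx
      · exact neg_S4 A i' _
      · exact neg_S3 A hu j
      · rw [mem_singleton_iff.1 hS]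
        exact neg_S5 A hκ)
  refine ⟨M, hgood M fun S hS => hM S (Or.inl hS),
    l0_ne (hM _ (Or.inr (Or.inl (Or.inl rfl)))),
    inj3_of A fun j => hM _ (Or.inr (Or.inr (Or.inl ⟨j, rfl⟩))),
    fun v hv hr => sep_of A (fun i' => hM _ (Or.inr (Or.inl (Or.inr ⟨i', rfl⟩)))) hv hr,
    fun c hc' => ?_⟩
  refine hM _ (Or.inr (Or.inr (Or.inr rfl))) ⟨c, mem_univ _, fun r _ => ?_⟩
  rw [← lf_apply, map_sub, hc' r, sub_self]

end Vale.Agent.P300.H14
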