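import Vale.Agent.P300.H14.EMeas
import Vale.Agent.P300.H266.SecSpec
import Vale.Agent.P300.H813.SecN
import Vale.Agent.P300.H813.Cov

/-!
# P300 / PROJ: sections with prescribed singular behaviour on a finite covering, in charts

`theorem secL`: the Prop `SecL` of `H266/SecSpec.lean`.
-/

set_option autoImplicit false

open MeasureTheory Filter Topology
open scoped ENNReal NNReal

namespace Vale.Agent.P300.L2

open Vale.Agent.P300.H266 (IsFinCov HoloE HoloBE IsChart jac SecL)
open Vale.Agent.P300.H113 (leviF)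
open Vale.Agent.P300.H813.N (HoloB)

variable {n N : ℕ}

/-- the `ECov` of an `IsFinCov` -/
def _root_.Vale.Agent.P300.H266.IsFinCov.ecov {E : Type} [TopologicalSpace E] [T2Space E]
    {p : E → Fin n → ℂ} {V : Set (Fin n → ℂ)} (h : IsFinCov p V N) : ECov n N E :=
  ECov.ofSections h.isOpen h.cont h.mem h.loc

theorem _root_.Vale.Agent.P300.H266.IsFinCov.ecov_p {E : Type} [TopologicalSpace E] [T2Space E]
    {p : E → Fin n → ℂ} {V : Set (Fin n → ℂ)} (h : IsFinCov p V N) : h.ecov.p = p := rfl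

theorem _root_.Vale.Agent.P300.H266.IsFinCov.ecov_V {E : Type} [TopologicalSpace E] [T2Space E]
    {p : E → Fin n → ℂ} {V : Set (Fin n → ℂ)} (h : IsFinCov p V N) : h.ecov.V = V := rfl

namespace ECov

variable {E : Type} [TopologicalSpace E] (C : ECov n N E)

theorem isSec_of {W : Set (Fin n → ℂ)} {σ : (Fin n → ℂ) → E} (h : C.IsSec W σ) :
    H266.IsSec C.p C.V W σ := ⟨h.isOpen, h.subset, h.cont, h.p_eq⟩

theorem isSec_to {W : Set (Fin n → ℂ)} {σ : (Fin n → ℂ) → E} (h : H266.IsSec C.p C.V W σ) :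
    C.IsSec W σ := ⟨h.isOpen, h.cont, h.sec⟩

/-- a function which is continuous along the sections is continuous -/
theorem continuousOn_of_sec {F : E → ℂ} {U : Set (Fin n → ℂ)} (hU : IsOpen U)
    (h : ∀ W σ, C.IsSec W σ → W ⊆ U → ContinuousOn (fun z => F (σ z)) W) :
    ContinuousOn F (C.p ⁻¹' U) := by
  intro e he
  obtain ⟨W, σ, hσ, heW, hσe, hev⟩ := C.exists_sec e
  have h1 := h (W ∩ U) σ (hσ.mono (hσ.isOpen.inter hU) Set.inter_subset_left)
    Set.inter_subset_right
  have h2 : ContinuousAt (fun z => F (σ z)) (C.p e) :=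
    h1.continuousAt ((hσ.isOpen.inter hU).mem_nhds ⟨heW, he⟩)
  have h3 : ContinuousAt (fun e' => F (σ (C.p e'))) e :=
    ContinuousAt.comp (g := fun z => F (σ z)) (f := C.p) h2 C.continuous_p.continuousAt
  refine ContinuousAt.continuousWithinAt ?_
  refine h3.congr ?_
  filter_upwards [hev] with e' he'
  rw [he']

theorem continuous_of_holoE {F : E → ℂ} (h : HoloE C.p C.V F) : Continuous F := by
  have := C.continuousOn_of_sec (F := F) (U := Set.univ) isOpen_univ
    fun W σ hσ _ => (h W σ (C.isSec_of hσ)).continuousOn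
  rwa [Set.preimage_univ, ← continuousOn_univ.symm.eq] at this

variable [Nonempty E]

theorem holoE_of {X : (Fin n → ℂ) × ℕ → ℂ} (hX : C.S.Holo X) :
    HoloE C.p C.V (fun e => X (C.q e)) := by
  intro W σ hσ
  have h1 := hX W _ (C.isSection_lab (C.isSec_to hσ))
  refine h1.congr fun z hz => ?_
  show X (C.q (σ z)) = _
  rw [C.q_sec (C.isSec_to hσ) hz]

theorem holoB_of {f : E → ℂ} {w : Fin n → ℂ} {R : ℝ} (hf : HoloBE C.p C.V w R f) :
    HoloB C.S w R (fun x => f (C.pt x)) := by
  intro W s hs hW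
  exact hf W _ (C.isSec_of (C.isSec_pt hs)) hW

end ECov


/-- change of variables in a chart -/
theorem ECov.cov {E : Type} [TopologicalSpace E] [T2Space E] [SecondCountableTopology E]
    [Nonempty E] [MeasurableSpace E] [BorelSpace E] (D : ECov n N E)
    {κ : (Fin n → ℂ) → E} {B : Set (Fin n → ℂ)} (hκ : IsChart D.p κ B) {G : E → ℝ≥0∞}
    (hG : Measurable G) {A : Set (Fin n → ℂ)} (hA : MeasurableSet A) (hAB : A ⊆ B) :
    ∫⁻ x in κ '' A, G x ∂D.μE = ∫⁻ x in A, ENNReal.ofReal (‖jac D.p κ x‖ ^ 2) * G (κ x) :=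
  H813.cov (μ := D.μE) (pr := D.p) (V := D.V) (fib := D.fibE) D.isOpen.measurableSet
    D.isLocalHomeomorph_p D.mem (fun _ hz x => D.mem_fibE hz x) (fun _ hΨ => D.lintegral_μE hΨ)
    hκ.isOpen hκ.cont hκ.inj hκ.holo hG hA hAB

theorem secL {E : Type} [TopologicalSpace E] [T2Space E] [SecondCountableTopology E]
    {p : E → Fin n → ℂ} {V : Set (Fin n → ℂ)} (h : IsFinCov p V N) {ρ : (Fin n → ℂ) → ℝ} {C : ℝ}
    {k0 : ℕ} (hE : Exh V ρ C k0) : SecL p V ρ := by
  intro φ hφ hφ0 hφl w r c b hr hc hφc hφb f hf hfg κ B hκ hf0 hfi k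
  have hne : Nonempty E := ⟨κ 0⟩
  borelize E
  set D : ECov n N E := h.ecov with hD
  have hDp : D.p = p := rfl
  have hDV : D.V = V := rfl
  have hvz : Continuous (H266.vz w) := H813.N.vz_cont
  -- the closed set
  have hcl : ∀ t : ℝ, IsClosed {e : E | H266.vz w (p e) ≤ t} := fun t =>
    isClosed_le (hvz.comp h.cont) continuous_const
  have hmeasD : ∀ {κ : (Fin n → ℂ) → E} {B : Set (Fin n → ℂ)}, IsChart p κ B → ∀ t : ℝ,
      MeasurableSet (B ∩ {x | H266.vz w (p (κ x)) ≤ t}) := by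
    intro κ B hκ t
    have h1 : ContinuousOn (fun x => H266.vz w (p (κ x))) B :=
      (hvz.comp h.cont).comp_continuousOn hκ.cont
    have h2 := h1.isOpen_inter_preimage hκ.isOpen (isOpen_Ioi (a := t))
    have h3 : B ∩ {x | H266.vz w (p (κ x)) ≤ t} =
        B \ (B ∩ (fun x => H266.vz w (p (κ x))) ⁻¹' Set.Ioi t) := by
      ext x
      simp only [Set.mem_inter_iff, Set.mem_ofPred_eq, Set.mem_sdiff, Set.mem_preimage,
        Set.mem_Ioi, not_and, not_lt]
      constructor
      · rintro ⟨h1, h2⟩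
        exact ⟨h1, fun _ => h2⟩
      · rintro ⟨h1, h2⟩
        exact ⟨h1, h2 h1⟩
    rw [h3]
    exact hκ.isOpen.measurableSet.diff h2.measurableSet
  -- measurability of `f` on `{vz < 4 r}`
  have hfc : ContinuousOn f (p ⁻¹' {z | H266.vz w z < 4 * r}) :=
    D.continuousOn_of_sec (isOpen_lt hvz continuous_const) fun W σ hσ hW =>
      (hf W σ (D.isSec_of hσ) hW).continuousOn
  have hind : ∀ {t : ℝ} {g : E → ℂ}, ContinuousOn g {e : E | H266.vz w (p e) ≤ t} →
      Measurable ({e : E | H266.vz w (p e) ≤ t}.indicator g) := by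
    classical
    intro t g hg
    rw [← Set.piecewise_eq_indicator]
    exact hg.measurable_piecewise continuousOn_const (hcl t).measurableSet
  have hfm : Measurable ({e : E | H266.vz w (p e) ≤ r}.indicator f) :=
    hind (hfc.mono fun e he => lt_of_le_of_lt (b := r) he (by linarith))
  -- the input
  have hint : ∫⁻ x in {x | H813.N.vz w x.1 ≤ r},
      ENNReal.ofReal (‖f (D.pt x)‖ ^ 2) ∂D.S.μ < ⊤ := by
    rw [D.setLIntegral_q]
    set G : E → ℝ≥0∞ := fun e => ENNReal.ofReal (‖{e : E | H266.vz w (p e) ≤ r}.indicator f e‖ ^ 2)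
      with hG
    have hGm : Measurable G := by
      refine ENNReal.measurable_ofReal.comp ?_
      exact (hfm.norm).pow_const 2
    have hG0 : ∀ e, H266.vz w (p e) ≤ r → G e = ENNReal.ofReal (‖f e‖ ^ 2) := by
      intro e he
      simp only [hG]
      rw [Set.indicator_of_mem (show e ∈ {e : E | H266.vz w (p e) ≤ r} from he)]
    have hG1 : ∀ e, ¬ H266.vz w (p e) ≤ r → G e = 0 := by
      intro e he
      simp only [hG]
      rw [Set.indicator_of_notMem (show e ∉ {e : E | H266.vz w (p e) ≤ r} from he)]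
      simp
    have hBm : MeasurableSet (κ '' B) :=
      hκ.isOpen.measurableSet.image_of_continuousOn_injOn hκ.cont hκ.inj
    have e1 : ∫⁻ e in D.q ⁻¹' {x | H813.N.vz w x.1 ≤ r},
        ENNReal.ofReal (‖f (D.pt (D.q e))‖ ^ 2) ∂D.μE = ∫⁻ e, G e ∂D.μE := by
      have hs : D.q ⁻¹' {x | H813.N.vz w x.1 ≤ r} = {e : E | H266.vz w (p e) ≤ r} := rfl
      rw [hs, ← lintegral_indicator (hcl r).measurableSet]
      refine lintegral_congr fun e => ?_
      by_cases he : H266.vz w (p e) ≤ r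
      · rw [Set.indicator_of_mem (show e ∈ {e : E | H266.vz w (p e) ≤ r} from he), D.pt_q, hG0 e he]
      · rw [Set.indicator_of_notMem (show e ∉ {e : E | H266.vz w (p e) ≤ r} from he), hG1 e he]
    have e2 : ∫⁻ e, G e ∂D.μE = ∫⁻ e in κ '' B, G e ∂D.μE := by
      rw [← lintegral_indicator hBm]
      refine lintegral_congr fun e => ?_
      by_cases he : e ∈ κ '' B
      · rw [Set.indicator_of_mem he]
      · rw [Set.indicator_of_notMem he]
        by_cases her : H266.vz w (p e) ≤ r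
        · rw [hG0 e her, hf0 e her he]
          simp
        · exact hG1 e her
    rw [e1, e2, D.cov hκ hGm hκ.isOpen.measurableSet subset_rfl]
    refine lt_of_le_of_lt (le_of_eq ?_) hfi
    rw [← lintegral_indicator (hmeasD hκ r), ← lintegral_indicator hκ.isOpen.measurableSet]
    refine lintegral_congr fun x => ?_
    by_cases hx : x ∈ B
    · rw [Set.indicator_of_mem hx]
      by_cases hxr : H266.vz w (p (κ x)) ≤ r
      · rw [Set.indicator_of_mem (show x ∈ B ∩ {x | H266.vz w (p (κ x)) ≤ r} from ⟨hx, hxr⟩),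
          hG0 _ hxr, ← ENNReal.ofReal_mul (by positivity), mul_comm, hDp]
      · rw [Set.indicator_of_notMem (fun h => hxr h.2), hG1 _ hxr, mul_zero]
    · rw [Set.indicator_of_notMem hx, Set.indicator_of_notMem (fun h => hx h.1)]
  obtain ⟨X, hX, hX1, hX2⟩ := H813.N.sec (S := D.S) hE hφ hφ0 hφl hr hc hφc hφb (D.holoB_of hf)
    (by
      obtain ⟨c', k', hc'⟩ := hfg
      refine ⟨c', k', fun x hx hxr => ?_⟩
      have h1 := hc' (D.pt x)
      have h2 := D.p_pt' hx
      rw [hDp] at h2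
      rw [h2] at h1
      exact h1 hxr) hint k
  have hFc : Continuous fun e => X (D.q e) := D.continuous_of_holoE (D.holoE_of hX)
  have hφc' : Continuous fun e => φ (p e) := by
    have h1 : ContinuousOn (fun e => φ (p e)) Set.univ :=
      hφ.continuousOn.comp h.cont.continuousOn fun e _ => h.mem e
    exact continuousOn_univ.1 h1
  have hvc : Continuous fun e => H266.vz w (p e) := hvz.comp h.cont
  refine ⟨fun e => X (D.q e), D.holoE_of hX, fun κ' B' hκ' => ⟨?_, ?_⟩⟩
  · set G : E → ℝ≥0∞ := fun e => ENNReal.ofReal (‖X (D.q e)‖ ^ 2 *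
      (Real.exp (-φ (p e)) * ((1 + H266.vz w (p e)) ^ k)⁻¹)) with hG
    have hGm : Measurable G := by
      refine ENNReal.measurable_ofReal.comp ?_
      refine (hFc.measurable.norm.pow_const 2).mul (Measurable.mul ?_ ?_)
      · exact (Real.measurable_exp.comp hφc'.measurable.neg)
      · exact ((hvc.measurable.const_add 1).pow_const k).inv
    have e1 : ∫⁻ x in B', ENNReal.ofReal (‖X (D.q (κ' x))‖ ^ 2 * ‖jac p κ' x‖ ^ 2 *
        (Real.exp (-φ (p (κ' x))) * ((1 + H266.vz w (p (κ' x))) ^ k)⁻¹)) =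
        ∫⁻ e in κ' '' B', G e ∂D.μE := by
      rw [D.cov hκ' hGm hκ'.isOpen.measurableSet subset_rfl]
      refine lintegral_congr fun x => ?_
      rw [hG, ← ENNReal.ofReal_mul (by positivity)]
      congr 1
      rw [hDp]
      ring
    rw [e1]
    refine lt_of_le_of_lt (setLIntegral_le_lintegral _ _) ?_
    rw [D.lintegral_q] at hX1
    exact hX1
  · set K : Set E := {e : E | H266.vz w (p e) ≤ r / 2} with hK
    set G : E → ℝ≥0∞ := fun e => ENNReal.ofReal (‖K.indicator (fun e => X (D.q e) - f e) e‖ ^ 2 *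
      (H266.vz w (p e) ^ k)⁻¹) with hG
    have hGm : Measurable G := by
      refine ENNReal.measurable_ofReal.comp ?_
      refine ((hind ?_).norm.pow_const 2).mul (hvc.measurable.pow_const k).inv
      exact hFc.continuousOn.sub (hfc.mono fun e he =>
        lt_of_le_of_lt (b := r / 2) he (by linarith))
    have hG0 : ∀ e ∈ K, G e = ENNReal.ofReal (‖X (D.q e) - f e‖ ^ 2 *
        (H266.vz w (p e) ^ k)⁻¹) := by
      intro e he
      simp only [hG]
      rw [Set.indicator_of_mem he]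
    have e1 : ∫⁻ x in B' ∩ {x | H266.vz w (p (κ' x)) ≤ r / 2},
        ENNReal.ofReal (‖X (D.q (κ' x)) - f (κ' x)‖ ^ 2 * ‖jac p κ' x‖ ^ 2 *
        (H266.vz w (p (κ' x)) ^ k)⁻¹) =
        ∫⁻ e in κ' '' (B' ∩ {x | H266.vz w (p (κ' x)) ≤ r / 2}), G e ∂D.μE := by
      rw [D.cov hκ' hGm (hmeasD hκ' _) Set.inter_subset_left]
      refine setLIntegral_congr_fun (hmeasD hκ' _) fun x hx => ?_
      rw [hG0 _ hx.2, ← ENNReal.ofReal_mul (by positivity)]
      congr 1
      rw [hDp]
      ring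
    rw [e1]
    have hsub : κ' '' (B' ∩ {x | H266.vz w (p (κ' x)) ≤ r / 2}) ⊆ K := by
      rintro _ ⟨x, hx, rfl⟩
      exact hx.2
    refine lt_of_le_of_lt (lintegral_mono_set hsub) ?_
    rw [D.setLIntegral_q] at hX2
    refine lt_of_le_of_lt (le_of_eq ?_) hX2
    have hs : D.q ⁻¹' {x | H813.N.vz w x.1 ≤ r / 2} = K := rfl
    rw [hs]
    refine setLIntegral_congr_fun (hcl _).measurableSet fun e he => ?_
    rw [hG0 e he, D.pt_q]
    rfl

end Vale.Agent.P300.L2
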